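import Vale.Agent.P281.H713.SB.Iface
import Vale.Agent.P281.H167.GM.Iface
import Vale.Agent.P281.H716.Iface

/-! P281, theorem KD (pairs `(X, Δ)` with coefficients `< 1` and `K_X + Δ` semiample): the blocks of
the proof, as propositions. -/

open scoped Manifold ContDiff Topology ComplexOrder
open Set Filter Vale.Agent.P281.J Vale.Agent.P272.K Vale.Agent.P272.K.AMP Vale.Agent.P299
open Vale.Agent.P299.H882 (J xi qf)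
open Vale.Agent.P272.K.INT (IsClosedForm)

noncomputable section

namespace Vale.Agent.P281.H713.KD

open Vale.Agent.P281.H713 Vale.Agent.P281.H713.SA Vale.Agent.P281.H716
open Vale.Agent.P281.H167.GM (mixX addF phiD)

section defs

variable {n M : ℕ} {X : Type} [TopologicalSpace X] [ChartedSpace (Cm n) X]

/-- `Dv i` are smooth divisors with normal crossings, `r i = |g i|² exp (-ψ i) ≤ 1` is the square of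
the norm of the canonical section of `O(Dv i)` for a smooth metric of curvature `R i`. -/
structure IsBd (Dv : Fin M → Set X) (r : Fin M → X → ℝ) (R : Fin M → D.FormM n X) : Prop where
  le_one : ∀ i x, r i x ≤ 1
  closed : ∀ i, IsClosedForm (R i)
  loc : ∀ e x, At e x → ∃ (g : Fin M → Cm n → ℂ) (ψ : Fin M → Cm n → ℝ),
    (∀ i, AnalyticAt ℂ (g i) (e x)) ∧ (∀ i, ContDiffAt ℝ ∞ (ψ i) (e x)) ∧
    (∀ i, IsLocalEq (Cm n) (Dv i) (fun y => g i (e y)) x) ∧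
    (LinearIndependent ℂ fun i : {i // g i (e x) = 0} => fderiv ℂ (g i.1) (e x)) ∧
    ∀ᶠ z in 𝓝 (e x), ∀ i, r i (e.symm z) = ‖g i z‖ ^ 2 * Real.exp (-ψ i z) ∧
      R i e z = cHess (ψ i) z

/-- `i∂∂̄ log (r + ε) + R`, which tends to the current of integration on `{r = 0}` -/
def dF (r : X → ℝ) (R : D.FormM n X) (ε : ℝ) : D.FormM n X :=
  fun e z => cHess (fun y => Real.log (r (e.symm y) + ε)) z + R e z

/-- the metric `φ + (1/m) log (ρ + δ) - ∑ dl i log (r i + ε)` on `K_X` -/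
def phiK (φ : Chart n X → Cm n → ℝ) (m : ℕ) (ρ : X → ℝ) (δ : ℝ) (dl : Fin M → ℝ)
    (r : Fin M → X → ℝ) (ε : ℝ) (e : Chart n X) (z : Cm n) : ℝ :=
  phiD φ m ρ δ e z - ∑ i, dl i * Real.log (r i (e.symm z) + ε)

/-- the curvature form of the metric `φ + (1/m) log (ρ + δ) - ∑ dl i log (r i)` on
`K_X + ∑ dl i Dv i` -/
def curvK (φ : Chart n X → Cm n → ℝ) (m : ℕ) (ρ : X → ℝ) (δ : ℝ) (dl : Fin M → ℝ)
    (R : Fin M → D.FormM n X) : D.FormM n X :=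
  fun e z => cHess (phiD φ m ρ δ e) z + ∑ i, ((dl i : ℝ) : ℂ) • R i e z

/-- the class of `K_X + ∑ dl i Dv i` -/
def clsK (φ : Chart n X → Cm n → ℝ) (dl : Fin M → ℝ) (R : Fin M → D.FormM n X) : D.FormM n X :=
  fun e z => cHess (φ e) z + ∑ i, ((dl i : ℝ) : ℂ) • R i e z

/-- these metrics have curvature `≥ - C δ/(ρ + δ) χ` -/
def CurvKGe (φ : Chart n X → Cm n → ℝ) (m : ℕ) (ρ : X → ℝ) (dl : Fin M → ℝ)
    (R : Fin M → D.FormM n X) (C : ℝ) (χ : D.FormM n X) : Prop :=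
  ∀ δ : ℝ, 0 < δ → ∀ e x, At e x → (curvK φ m ρ δ dl R e (e x) +
    ((C * (δ / (ρ x + δ)) : ℝ) : ℂ) • χ e (e x)).PosSemidef

/-- `h` is locally the square of the norm of a vector of holomorphic functions -/
def IsHolNorm (h : X → ℝ) : Prop := ∀ (e : Chart n X) x, At e x →
  ∃ (N : ℕ) (a : Fin N → Cm n → ℂ) (H : Cm n → Matrix (Fin N) (Fin N) ℂ),
    (∀ b, AnalyticAt ℂ (a b) (e x)) ∧ (∀ b c, ContDiffAt ℝ ∞ (fun z => H z b c) (e x)) ∧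
    (H (e x)).PosDef ∧ ∀ᶠ z in 𝓝 (e x), (H z).IsHermitian ∧
      h (e.symm z) = (∑ b, ∑ c, a b z * (starRingEnd ℂ) (a c z) * H z b c).re

/-- `det (b g⁻¹ b*)`: the square of the norm of `b_1 ∧ ⋯ ∧ b_p`, for the metric `G` -/
def gramD {p : ℕ} (b : Matrix (Fin p) (Fin n) ℂ) (G : Matrix (Fin n) (Fin n) ℂ) : ℝ :=
  (b * (G⁻¹).transpose * b.conjTranspose).det.re

/-- For all Kähler metrics `g`, `N₀ g` and `N₁ g` are the squares of the norms, for `g` and the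
metrics of `O(Dv i)`, of two proportional meromorphic tensors `c (b_1 ∧ ⋯ ∧ b_p)^μ` with poles of
order `≤ K i` along `Dv i`, and exactly `K i` for one of them if `K i ≠ 0`.  On `Dv i`, `K i ≠ 0`,
`d g i` belongs to the span of the `b_j`, where one of the tensors is nonzero. -/
structure IsDecPair (Dv : Fin M → Set X) (r : Fin M → X → ℝ) (χ : D.FormM n X) (p μ : ℕ)
    (K : Fin M → ℕ) (N₀ N₁ : D.FormM n X → X → ℝ) : Prop where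
  smooth : ∀ g, IsKahler g → SmoothFn (n := n) (N₀ g) ∧ SmoothFn (n := n) (N₁ g)
  nonneg : ∀ g x, IsKahler g → 0 ≤ N₀ g x ∧ 0 ≤ N₁ g x
  pos : ∀ g x, IsKahler g → (0 < N₀ g x ↔ 0 < N₀ χ x) ∧ (0 < N₁ g x ↔ 0 < N₁ χ x)
  hol : IsHolNorm (n := n) fun x => N₀ χ x + N₁ χ x
  ne : ∀ i, K i ≠ 0 → ∀ x ∈ Dv i, ¬ ∀ᶠ y in 𝓝 x, y ∈ Dv i → N₀ χ y + N₁ χ y = 0
  good : ∃ 𝒪 : Set X, Dense 𝒪 ∧ ∀ a : ℝ, 0 < a → ∃ C : ℝ, ∀ x ∈ 𝒪, (∀ i, 0 < r i x) ∧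
    ∃ (e : Chart n X) (b : Cm n → Matrix (Fin p) (Fin n) ℂ) (c₀ c₁ : Cm n → ℂ), At e x ∧
      (∀ j l, AnalyticAt ℂ (fun z => b z j l) (e x)) ∧
      AnalyticAt ℂ c₀ (e x) ∧ AnalyticAt ℂ c₁ (e x) ∧
      (∀ g, IsKahler g → ∀ᶠ z in 𝓝 (e x),
        N₀ g (e.symm z) = ‖c₀ z‖ ^ 2 * (∏ i, r i (e.symm z) ^ K i) * gramD (b z) (g e z) ^ μ ∧
        N₁ g (e.symm z) = ‖c₁ z‖ ^ 2 * (∏ i, r i (e.symm z) ^ K i) * gramD (b z) (g e z) ^ μ) ∧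
      (a ≤ N₀ χ x + N₁ χ x → ∀ i, K i ≠ 0 → ∃ l : Fin p → ℂ,
        qf (χ e (e x)) (fun k => xi (fun y => Real.log (r i y)) e (e x) k -
          ∑ j, l j * b (e x) j k) ≤ C)

/-- `|∂S|² ≤ S Δ_g S + τ S²` -/
def BochF (g : D.FormM n X) (τ S : X → ℝ) : Prop :=
  ∀ x, gradX g S S x ≤ S x * lapX g S x + τ x * S x ^ 2

end defs

/-- **Block C0**: the uniform estimate for densities in `L^a`, `a > 1`. -/
def C0Part : Prop := ∀ (n : ℕ) (X : Type) [TopologicalSpace X] [T2Space X] [CompactSpace X]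
  [ConnectedSpace X] [ChartedSpace (Cm n) X] [IsManifold 𝓘(ℂ, Cm n) ω X]
  (G : D.FormM n X) (_ : IsKahler G) (a B : ℝ) (_ : 1 < a), ∃ C : ℝ, ∀ U F : X → ℝ,
    SmoothFn (n := n) U → SmoothFn (n := n) F → IsKahler (addH G U) →
    (∀ e x, At e x → Real.log (addH G U e (e x)).det.re =
      Real.log (G e (e x)).det.re + F x) →
    J G (fun x => Real.exp (a * F x)) ≤ B → ∀ x y, U x - U y ≤ C

/-- **Block INT**: integrability (`a < 1`). -/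
def IntPart : Prop := ∀ (n M : ℕ) (X : Type) [TopologicalSpace X] [T2Space X] [CompactSpace X]
  [ConnectedSpace X] [ChartedSpace (Cm n) X] [IsManifold 𝓘(ℂ, Cm n) ω X]
  (χ : D.FormM n X) (_ : IsKahler χ) (Dv : Fin M → Set X) (r : Fin M → X → ℝ)
  (R : Fin M → D.FormM n X) (_ : IsBd Dv r R) (a : ℝ) (_ : a < 1),
  ∃ K : ℝ, ∀ ε : ℝ, 0 < ε → ε ≤ 1 → J χ (fun x => ∏ i, (r i x + ε) ^ (-a)) ≤ K

/-- **Block LOG**: `- log h` is integrable on the divisor `Dv i` (uniformly on its tubes), if `h`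
does not vanish on an open subset of it. -/
def LogPart : Prop := ∀ (n M : ℕ) (X : Type) [TopologicalSpace X] [T2Space X] [CompactSpace X]
  [ConnectedSpace X] [ChartedSpace (Cm n) X] [IsManifold 𝓘(ℂ, Cm n) ω X]
  (χ : D.FormM n X) (_ : IsKahler χ) (Dv : Fin M → Set X) (r : Fin M → X → ℝ)
  (R : Fin M → D.FormM n X) (_ : IsBd Dv r R) (h : X → ℝ) (_ : Continuous h)
  (_ : IsHolNorm (n := n) h) (_ : ∃ x, 0 < h x) (i : Fin M)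
  (_ : ∀ x ∈ Dv i, ¬ ∀ᶠ y in 𝓝 x, y ∈ Dv i → h y = 0),
  ∃ K : ℝ, ∀ ε ε' : ℝ, 0 < ε → ε ≤ 1 → 0 < ε' → ε' ≤ 1 →
    J χ (fun x => -Real.log (h x + ε') * (ε / (r i x + ε) ^ 2)) ≤ K

/-- **Block DB**: bounds for `i∂∂̄ log (r + ε) + R` and `i∂∂̄ log (h + ε)`. -/
def BdPart : Prop := ∀ (n M : ℕ) (X : Type) [TopologicalSpace X] [T2Space X] [CompactSpace X]
  [ConnectedSpace X] [ChartedSpace (Cm n) X] [IsManifold 𝓘(ℂ, Cm n) ω X]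
  (χ : D.FormM n X) (_ : IsKahler χ) (Dv : Fin M → Set X) (r : Fin M → X → ℝ)
  (R : Fin M → D.FormM n X) (_ : IsBd Dv r R),
  (∀ i, SmoothFn (n := n) (r i)) ∧ (∃ C : ℝ, 0 ≤ C ∧ ∀ i e x, At e x →
    ((C : ℂ) • χ e (e x) - R i e (e x)).PosSemidef ∧
    ((C : ℂ) • χ e (e x) + R i e (e x)).PosSemidef ∧ ∀ ε : ℝ, 0 < ε → ε ≤ 1 →
    (dF (r i) (R i) ε e (e x) + ((C * (ε / (r i x + ε)) : ℝ) : ℂ) • χ e (e x)).PosSemidef ∧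
    (∃ a : Fin n → ℂ, ((C : ℂ) • χ e (e x) + Matrix.vecMulVec a (star a) -
        dF (r i) (R i) ε e (e x)).PosSemidef ∧
      qf (χ e (e x)) a ≤ C * (ε / (r i x + ε) ^ 2)) ∧
    (0 < r i x → (((C * (ε / (r i x + ε)) : ℝ) : ℂ) • χ e (e x) +
      ((ε / (r i x + ε) : ℝ) : ℂ) • Matrix.vecMulVec (xi (fun y => Real.log (r i y)) e (e x))
        (star (xi (fun y => Real.log (r i y)) e (e x))) -
        dF (r i) (R i) ε e (e x)).PosSemidef)) ∧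
  ∀ h : X → ℝ, IsHolNorm (n := n) h → SmoothFn (n := n) h ∧ ∃ C : ℝ, 0 ≤ C ∧
    ∀ ε : ℝ, 0 < ε → ε ≤ 1 → ∀ e x, At e x →
      (hess (fun y => Real.log (h y + ε)) e (e x) + (C : ℂ) • χ e (e x)).PosSemidef

/-- **Block MK**: no mass on `{ρ = 0}`, on `Dv i`, and no mass of the current `[Dv i]` on
`{h = 0}`, uniformly.  `g = G + i∂∂̄U`, `log det g = φ + (1/m) log (ρ + δ) - ∑ dl i log (r i + ε) + c`. -/
def MassPartK : Prop := ∀ (n M : ℕ) (X : Type) [TopologicalSpace X] [T2Space X] [CompactSpace X]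
  [ConnectedSpace X] [ChartedSpace (Cm n) X] [IsManifold 𝓘(ℂ, Cm n) ω X]
  (G : D.FormM n X) (_ : IsKahler G) (φ : Chart n X → Cm n → ℝ) (_ : IsCanonicalMetric φ)
  (m : ℕ) (_ : 0 < m) (ρ : X → ℝ) (_ : SmoothFn (n := n) ρ) (_ : ∀ x, 0 ≤ ρ x)
  (_ : ∃ x, 0 < ρ x) (Dv : Fin M → Set X) (r : Fin M → X → ℝ) (R : Fin M → D.FormM n X)
  (_ : IsBd Dv r R) (dl : Fin M → ℝ) (_ : ∀ i, 0 ≤ dl i ∧ dl i < 1) (C : ℝ)
  (_ : CurvKGe φ m ρ dl R C G) (h : X → ℝ) (_ : IsHolNorm (n := n) h) (_ : ∃ x, 0 < h x)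
  (C' : ℝ) (κ : ℝ) (_ : 0 < κ), ∃ (a : ℝ) (β : X → ℝ), 0 < a ∧ Continuous β ∧ (∀ x, 0 ≤ β x) ∧
    (∀ x, h x < a → 1 ≤ β x) ∧ ∃ δ₀ : ℝ, 0 < δ₀ ∧ ∀ δ ε : ℝ, 0 < δ → δ ≤ δ₀ → 0 < ε → ε ≤ δ₀ →
    ∀ (U : X → ℝ) (c : ℝ), SmoothFn (n := n) U → IsKahler (addH G U) →
      (∀ e x, At e x → Real.log (addH G U e (e x)).det.re = phiK φ m ρ δ dl r ε e (e x) + c) →
      J (addH G U) (fun x => δ / (ρ x + δ) * trX (addH G U) G x) ≤ κ ∧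
      (∀ i, J (addH G U) (fun x => ε / (r i x + ε) * trX (addH G U) G x) ≤ κ) ∧
      ∀ i, (∀ x ∈ Dv i, ¬ ∀ᶠ y in 𝓝 x, y ∈ Dv i → h y = 0) →
        J (addH G U) (fun x => β x * (trX (addH G U) (dF (r i) (R i) ε) x +
          C' * trX (addH G U) G x)) ≤ κ

/-- **Block BK** (Bochner).  If `Ric(g) = - curvK + ∑ dl i dF (r i)`, then
`S = N g ∏ (r i + ε)^(-K i)` satisfies `|∂S|² ≤ S ΔS + τ S²`, where `τ` is the sum of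
`μ tr_g (curvK + C δ/(ρ + δ) χ)`, small multiples of `tr_g χ` and a term near `{N χ < a}`. -/
def BochPartK : Prop := ∀ (n M : ℕ) (X : Type) [TopologicalSpace X] [T2Space X] [CompactSpace X]
  [ConnectedSpace X] [ChartedSpace (Cm n) X] [IsManifold 𝓘(ℂ, Cm n) ω X]
  (χ : D.FormM n X) (_ : IsKahler χ) (φ : Chart n X → Cm n → ℝ) (_ : IsCanonicalMetric φ)
  (m : ℕ) (_ : 0 < m) (ρ : X → ℝ) (_ : SmoothFn (n := n) ρ) (_ : ∀ x, 0 ≤ ρ x)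
  (Dv : Fin M → Set X) (r : Fin M → X → ℝ) (R : Fin M → D.FormM n X)
  (_ : IsBd Dv r R) (dl : Fin M → ℝ) (_ : ∀ i, 0 ≤ dl i) (C : ℝ) (_ : 0 ≤ C)
  (_ : CurvKGe φ m ρ dl R C χ) (p μ : ℕ) (K : Fin M → ℕ) (_ : ∀ i, (K i : ℝ) ≤ μ * dl i)
  (N₀ N₁ : D.FormM n X → X → ℝ) (_ : IsDecPair Dv r χ p μ K N₀ N₁),
  ∃ C₂ : ℝ, 0 ≤ C₂ ∧ ∀ a : ℝ, 0 < a →
  ∃ C' : ℝ, 0 ≤ C' ∧ ∀ (β : X → ℝ), Continuous β → (∀ x, 0 ≤ β x) →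
    (∀ x, N₀ χ x + N₁ χ x < a → 1 ≤ β x) → ∀ δ ε : ℝ, 0 < δ → 0 < ε → ε ≤ 1 →
    ∀ (g : D.FormM n X) (c : ℝ), IsKahler g →
      (∀ e x, At e x → Real.log (g e (e x)).det.re = phiK φ m ρ δ dl r ε e (e x) + c) →
      ∀ N : D.FormM n X → X → ℝ, N = N₀ ∨ N = N₁ →
      BochF g (fun x => μ * (trX g (curvK φ m ρ δ dl R) x + C * (δ / (ρ x + δ)) * trX g χ x) +
        C' * ∑ i, ε / (r i x + ε) * trX g χ x +
        β x * ∑ i, if K i = 0 then 0 else K i * (trX g (dF (r i) (R i) ε) x + C₂ * trX g χ x))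
        (fun x => N g x * ∏ i, (r i x + ε)⁻¹ ^ K i)

/-- **Block KD-CORE**. -/
def CorePartK : Prop := ∀ (n M : ℕ) (X : Type) [TopologicalSpace X] [T2Space X] [CompactSpace X]
  [ConnectedSpace X] [ChartedSpace (Cm n) X] [IsManifold 𝓘(ℂ, Cm n) ω X]
  (χ : D.FormM n X) (_ : IsKahler χ) (φ : Chart n X → Cm n → ℝ) (_ : IsCanonicalMetric φ)
  (m : ℕ) (_ : 0 < m) (ρ : X → ℝ) (_ : SmoothFn (n := n) ρ) (_ : ∀ x, 0 ≤ ρ x)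
  (Dv : Fin M → Set X) (r : Fin M → X → ℝ) (R : Fin M → D.FormM n X)
  (_ : IsBd Dv r R) (dl : Fin M → ℝ) (_ : ∀ i, 0 ≤ dl i ∧ dl i < 1) (C : ℝ)
  (_ : CurvKGe φ m ρ dl R C χ) (θ β : D.FormM n X) (_ : IsClosedForm θ) (_ : IsClosedForm β)
  (_ : ∀ e x, At e x → (θ e (e x)).PosSemidef) (_ : ∀ e x, At e x → (β e (e x)).PosSemidef)
  (ν : ℕ) (C₁ : ℝ) (_ : ∃ᶠ s : ℝ in atTop, mixX (addF β s θ) (clsK φ dl R) ≤ C₁ * s ^ ν / s)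
  (p μ : ℕ) (K : Fin M → ℕ) (_ : ∀ i, (K i : ℝ) ≤ μ * dl i)
  (N₀ N₁ : D.FormM n X → X → ℝ) (_ : IsDecPair Dv r χ p μ K N₀ N₁)
  (u : X → ℝ) (_ : ∀ g x, IsKahler g → 0 < N₀ g x → 0 < N₁ g x →
    u x = Real.log (N₁ g x) - Real.log (N₀ g x))
  (e : Chart n X) (x : X) (_ : At e x) (_ : 0 < N₀ χ x) (_ : 0 < N₁ χ x) (_ : 0 < ρ x)
  (_ : ∀ i, 0 < r i x) (_ : (β e (e x)).PosDef) (_ : (θ e (e x)).rank = ν) (v : Cm n)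
  (_ : ∀ j, ∑ i, v i * θ e (e x) i j = 0),
  ∑ i, xi u e (e x) i * v i = 0

/-- **Block FC** (the analysis on the fibre).  `N₀, N₁` squares of the norms of sections of the line
bundle `κ Λ`. -/
def CorePartF : Prop := ∀ (n : ℕ) (X : Type) [TopologicalSpace X] [T2Space X] [CompactSpace X]
  [ConnectedSpace X] [ChartedSpace (Cm n) X] [IsManifold 𝓘(ℂ, Cm n) ω X]
  (χ : D.FormM n X) (_ : IsKahler χ) (Λ : D.FormM n X) (_ : IsClosedForm Λ) (m : ℕ) (_ : 0 < m)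
  (ρ : X → ℝ) (_ : SmoothFn (n := n) ρ) (_ : ∀ x, 0 ≤ ρ x)
  (_ : ∀ e ∈ atlas (Cm n) X, MeasureTheory.volume {z | z ∈ e.target ∧ ρ (e.symm z) = 0} = 0)
  (C : ℝ) (_ : ∀ δ : ℝ, 0 < δ → ∀ e x, At e x → (Λ e (e x) + (((m : ℝ)⁻¹ : ℝ) : ℂ) •
    hess (fun y => Real.log (ρ y + δ)) e (e x) +
    ((C * (δ / (ρ x + δ)) : ℝ) : ℂ) • χ e (e x)).PosSemidef)
  (θ β : D.FormM n X) (_ : IsClosedForm θ) (_ : IsClosedForm β)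
  (_ : ∀ e x, At e x → (θ e (e x)).PosSemidef) (_ : ∀ e x, At e x → (β e (e x)).PosSemidef)
  (ν : ℕ) (C₁ : ℝ) (_ : ∃ᶠ s : ℝ in atTop, mixX (addF β s θ) Λ ≤ C₁ * s ^ ν / s)
  (κ : ℕ) (N₀ N₁ : X → ℝ) (_ : SmoothFn (n := n) N₀) (_ : SmoothFn (n := n) N₁)
  (_ : ∀ x, ∃ (e : Chart n X) (ψ : Cm n → ℝ) (c₀ c₁ : Cm n → ℂ), At e x ∧
    ContDiffAt ℝ ∞ ψ (e x) ∧ AnalyticAt ℂ c₀ (e x) ∧ AnalyticAt ℂ c₁ (e x) ∧
    cHess ψ (e x) = (κ : ℂ) • Λ e (e x) ∧ ∀ᶠ z in 𝓝 (e x),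
      N₀ (e.symm z) = ‖c₀ z‖ ^ 2 * Real.exp (-ψ z) ∧ N₁ (e.symm z) = ‖c₁ z‖ ^ 2 * Real.exp (-ψ z))
  (e : Chart n X) (x : X) (_ : At e x) (_ : 0 < N₀ x) (_ : 0 < N₁ x) (_ : 0 < ρ x)
  (_ : (β e (e x)).PosDef) (_ : (θ e (e x)).rank = ν) (v : Cm n)
  (_ : ∀ j, ∑ i, v i * θ e (e x) i j = 0),
  ∑ i, xi (fun y => Real.log (N₁ y) - Real.log (N₀ y)) e (e x) i * v i = 0

/-- **Block TK** (tensors).  The norms of the pull-backs of `l`-th powers of two sections of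
`m (K_Y + B)`, `B ≤ B(f, Δ')`. -/
def TenPartK : Prop := ∀ (n p M : ℕ) (X Z Y : Type)
  [TopologicalSpace X] [T2Space X] [CompactSpace X] [ConnectedSpace X]
  [ChartedSpace (Cm n) X] [IsManifold 𝓘(ℂ, Cm n) ω X]
  [TopologicalSpace Z] [ChartedSpace (Cm n) Z] [IsManifold 𝓘(ℂ, Cm n) ω Z]
  [TopologicalSpace Y] [T2Space Y] [ConnectedSpace Y]
  [ChartedSpace (Cm p) Y] [IsManifold 𝓘(ℂ, Cm p) ω Y]
  (χ : D.FormM n X) (_ : IsKahler χ)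
  (j : Z → X) (_ : IsBigOpen (Cm n) j) (f : Z → Y) (_ : ContMDiff 𝓘(ℂ, Cm n) 𝓘(ℂ, Cm p) ω f)
  (𝒢 : Set (Set Y)) (_ : IsDivisorial (Cm n) (Cm p) f 𝒢)
  (Δ : Set X → ℝ) (_ : IsSNC (Cm n) Δ) (_ : ∀ D, Δ D < 1) (Δ' : Set Z → ℝ)
  (_ : IsSNC (Cm n) Δ') (_ : IsRestriction j Δ Δ')
  (Dv : Fin M → Set X) (_ : Function.Injective Dv) (_ : ∀ D, Δ D ≠ 0 ↔ ∃ i, Dv i = D)
  (r : Fin M → X → ℝ) (R : Fin M → D.FormM n X) (_ : IsBd Dv r R)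
  (m : ℕ) (_ : 0 < m) (k : Set Y → ℕ)
  (_ : ∀ G, (k G : ℝ) ≤ m * orbBase' (Cm n) (Cm p) f Δ' G) (_ : ∀ G, k G ≠ 0 → G ∈ 𝒢)
  (σ₀ σ₁ : Y → ℂ) (_ : IsSection (Cm p) (fun (D : Set Y) z g => IsLocalEq (Cm p) D g z) m k σ₀)
  (_ : IsSection (Cm p) (fun (D : Set Y) z g => IsLocalEq (Cm p) D g z) m k σ₁)
  (_ : ∃ z, Function.Surjective (mfderiv 𝓘(ℂ, Cm n) 𝓘(ℂ, Cm p) f z) ∧ f z ∉ ⋃₀ 𝒢 ∧
    σ₀ (f z) ≠ 0),
  ∃ (μ l : ℕ) (K : Fin M → ℕ) (N₀ N₁ : D.FormM n X → X → ℝ), 0 < l ∧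
    (∀ i, (K i : ℝ) ≤ μ * Δ (Dv i)) ∧
    IsDecPair Dv r χ p μ K N₀ N₁ ∧
    (∀ g x, IsKahler g → 0 < N₀ g x → 0 < N₁ g x →
      Real.log (N₁ g x) - Real.log (N₀ g x) = Real.log (N₁ χ x) - Real.log (N₀ χ x)) ∧
    ∀ z, f z ∉ ⋃₀ 𝒢 → (∀ i, j z ∉ Dv i) →
      Function.Surjective (mfderiv 𝓘(ℂ, Cm n) 𝓘(ℂ, Cm p) f z) → σ₀ (f z) ≠ 0 → σ₁ (f z) ≠ 0 →
      0 < N₀ χ (j z) ∧ 0 < N₁ χ (j z) ∧ Real.log (N₁ χ (j z)) - Real.log (N₀ χ (j z)) =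
        l * (Real.log (‖σ₁ (f z)‖ ^ 2) - Real.log (‖σ₀ (f z)‖ ^ 2))

/-- **Block ME** (metrics): the boundary, and the metric of `K_X + Δ` defined by sections `s b`
generating `m (K_X + Δ)`. -/
def MetPartK : Prop := ∀ (n : ℕ) (X : Type) [TopologicalSpace X] [T2Space X] [CompactSpace X]
  [ConnectedSpace X] [ChartedSpace (Cm n) X] [IsManifold 𝓘(ℂ, Cm n) ω X]
  (χ : D.FormM n X) (_ : IsKahler χ) (Δ : Set X → ℝ) (_ : IsSNC (Cm n) Δ) (m N : ℕ) (_ : 0 < m)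
  (k : Set X → ℕ) (_ : ∀ D, (k D : ℝ) = m * Δ D) (s : Fin N → X → ℂ)
  (_ : ∀ b, IsSection (Cm n) (fun (D : Set X) z g => IsLocalEq (Cm n) D g z) m k (s b))
  (_ : ∀ x, ∃ b, Generates (Cm n) (fun (D : Set X) z g => IsLocalEq (Cm n) D g z) m k (s b) x),
  ∃ (M : ℕ) (Dv : Fin M → Set X) (r : Fin M → X → ℝ) (R : Fin M → D.FormM n X)
    (φ : Chart n X → Cm n → ℝ), Function.Injective Dv ∧ (∀ D, Δ D ≠ 0 ↔ ∃ i, Dv i = D) ∧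
    IsBd Dv r R ∧ IsCanonicalMetric φ ∧
    (∀ e x, At e x → (clsK φ (fun i => Δ (Dv i)) R e (e x)).PosSemidef) ∧
    (∀ e x, At e x → (∀ i, x ∉ Dv i) → ∀ b₀, s b₀ x ≠ 0 → ∀ v : Cm n,
      (∀ j, ∑ i, v i * clsK φ (fun i => Δ (Dv i)) R e (e x) i j = 0) ↔
        ∀ b, fderiv ℂ (fun z => s b (e.symm z) / s b₀ (e.symm z)) (e x) v = 0) ∧
    ∀ x, (∀ i, x ∉ Dv i) → (∑ b, ‖s b x‖ ^ 2) * ∏ i, r i x ^ k (Dv i) =
      Real.exp (m * φ (chartAt (Cm n) x) (chartAt (Cm n) x x))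

/-- **Block FK** (the fibre): the norms of two sections of `m₁ (K_F + Δ|_F)`. -/
def FibPartK : Prop := ∀ (n p d : ℕ) (_ : n = p + d) (M : ℕ) (X Z Y F : Type)
  [TopologicalSpace X] [T2Space X] [CompactSpace X] [ConnectedSpace X]
  [ChartedSpace (Cm n) X] [IsManifold 𝓘(ℂ, Cm n) ω X]
  [TopologicalSpace Z] [ChartedSpace (Cm n) Z] [IsManifold 𝓘(ℂ, Cm n) ω Z]
  [TopologicalSpace Y] [ChartedSpace (Cm p) Y] [IsManifold 𝓘(ℂ, Cm p) ω Y]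
  [TopologicalSpace F] [T2Space F] [CompactSpace F] [ConnectedSpace F]
  [ChartedSpace (Cm d) F] [IsManifold 𝓘(ℂ, Cm d) ω F]
  (j : Z → X) (_ : IsBigOpen (Cm n) j) (f : Z → Y) (_ : ContMDiff 𝓘(ℂ, Cm n) 𝓘(ℂ, Cm p) ω f)
  (i : F → Z) (_ : IsSmoothFibre (Cm n) (Cm p) (Cm d) f i)
  (Δ : Set X → ℝ) (_ : IsSNC (Cm n) Δ) (Dv : Fin M → Set X) (_ : Function.Injective Dv)
  (_ : ∀ D, Δ D ≠ 0 ↔ ∃ i, Dv i = D) (r : Fin M → X → ℝ) (R : Fin M → D.FormM n X)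
  (_ : IsBd Dv r R) (φ : Chart n X → Cm n → ℝ) (_ : IsCanonicalMetric φ)
  (_ : ∀ e x, At e x → (clsK φ (fun i => Δ (Dv i)) R e (e x)).PosSemidef)
  (_ : ∀ D, Δ D ≠ 0 → ∃ t, j (i t) ∉ D),
  ∃ Λ : D.FormM d F, IsClosedForm Λ ∧ (∀ e t, At e t → (Λ e (e t)).PosSemidef) ∧
    (∀ (e : Chart d F) t (E : Chart n X), At e t → At E (j (i t)) → ∀ v : Cm d,
      (∀ l, ∑ k, v k * Λ e (e t) k l = 0) ↔ ∀ l, ∑ k,
        fderiv ℂ (fun z => E (j (i (e.symm z)))) (e t) v k *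
          clsK φ (fun i => Δ (Dv i)) R E (E (j (i t))) k l = 0) ∧
    ∀ (m : ℕ) (k : Set X → ℕ) (a₀ a₁ : F → ℂ), (∀ D, (k D : ℝ) = m * Δ D) →
      IsSection (Cm d) (fun (D : Set X) t g => ∃ e, IsLocalEq (Cm n) D e (j (i t)) ∧
        ∀ᶠ t' in 𝓝 t, g t' = e (j (i t'))) m k a₀ →
      IsSection (Cm d) (fun (D : Set X) t g => ∃ e, IsLocalEq (Cm n) D e (j (i t)) ∧
        ∀ᶠ t' in 𝓝 t, g t' = e (j (i t'))) m k a₁ →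
      ∃ N₀ N₁ : F → ℝ, SmoothFn (n := d) N₀ ∧ SmoothFn (n := d) N₁ ∧
        (∀ x, ∃ (e : Chart d F) (ψ : Cm d → ℝ) (c₀ c₁ : Cm d → ℂ), At e x ∧
          ContDiffAt ℝ ∞ ψ (e x) ∧ AnalyticAt ℂ c₀ (e x) ∧ AnalyticAt ℂ c₁ (e x) ∧
          cHess ψ (e x) = (m : ℂ) • Λ e (e x) ∧ ∀ᶠ z in 𝓝 (e x),
            N₀ (e.symm z) = ‖c₀ z‖ ^ 2 * Real.exp (-ψ z) ∧
            N₁ (e.symm z) = ‖c₁ z‖ ^ 2 * Real.exp (-ψ z)) ∧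
        ∀ t, (∀ l, j (i t) ∉ Dv l) → a₀ t ≠ 0 → a₁ t ≠ 0 → 0 < N₀ t ∧ 0 < N₁ t ∧
          Real.log (N₁ t) - Real.log (N₀ t) =
            Real.log (‖a₁ t‖ ^ 2) - Real.log (‖a₀ t‖ ^ 2)

/-- **Theorem KD**. -/
def MainPartK : Prop := ∀ (n p d : ℕ) (_ : n = p + d) (X Z Y F : Type)
  [TopologicalSpace X] [T2Space X] [CompactSpace X] [ConnectedSpace X]
  [ChartedSpace (Cm n) X] [IsManifold 𝓘(ℂ, Cm n) ω X]
  [TopologicalSpace Z] [ChartedSpace (Cm n) Z] [IsManifold 𝓘(ℂ, Cm n) ω Z]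
  [TopologicalSpace Y] [T2Space Y] [ConnectedSpace Y]
  [ChartedSpace (Cm p) Y] [IsManifold 𝓘(ℂ, Cm p) ω Y]
  [TopologicalSpace F] [T2Space F] [CompactSpace F] [ConnectedSpace F]
  [ChartedSpace (Cm d) F] [IsManifold 𝓘(ℂ, Cm d) ω F]
  (χ : Chart n X → Cm n → Matrix (Fin n) (Fin n) ℂ) (_ : IsKahler χ)
  (Δ : Set X → ℝ) (_ : IsSNC (Cm n) Δ) (_ : ∀ D, Δ D < 1) (_ : IsSemiamplePair (Cm n) Δ)
  (j : Z → X) (_ : IsBigOpen (Cm n) j) (f : Z → Y) (_ : ContMDiff 𝓘(ℂ, Cm n) 𝓘(ℂ, Cm p) ω f)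
  (𝒢 : Set (Set Y)) (_ : IsDivisorial (Cm n) (Cm p) f 𝒢)
  (Δ' : Set Z → ℝ) (_ : IsSNC (Cm n) Δ') (_ : IsRestriction j Δ Δ')
  (_ : ∀ G, orbBase' (Cm n) (Cm p) f Δ' G ≠ 0 → G ∈ 𝒢)
  (i : F → Z) (_ : IsSmoothFibre (Cm n) (Cm p) (Cm d) f i)
  (_ : ∀ D, Δ D ≠ 0 → ∃ t, j (i t) ∉ D),
  kod (Cm d) (fun (D : Set X) t g => ∃ e, IsLocalEq (Cm n) D e (j (i t)) ∧
      ∀ᶠ t' in 𝓝 t, g t' = e (j (i t'))) Δ +
    kod (Cm p) (fun (G : Set Y) y g => IsLocalEq (Cm p) G g y) (orbBase' (Cm n) (Cm p) f Δ') ≤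
    kod (Cm n) (fun (D : Set X) x g => IsLocalEq (Cm n) D g x) Δ

end Vale.Agent.P281.H713.KD
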